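import Vale.Agent.Lib.P174.Main

/-!
# Passing to subgroups and to extensions (helper file for P174)
-/

namespace Vale.Agent.P174

universe u

/-- pulling the property back along an injective homomorphism -/
lemma systemsSolvable_of_injective {F : Type} [Field F] {K N : Type u} [Group K] [Group N]
    (f : K →* N) (hf : Function.Injective f) (h : SystemsSolvable F N) : SystemsSolvable F K := by
  intro m n w hw
  let μ : Monoid.Coprod K (FreeGroup (Fin n)) →* Monoid.Coprod N (FreeGroup (Fin n)) :=
    Monoid.Coprod.map f (MonoidHom.id _)
  have h1 : (exponentSum N n).comp μ = exponentSum K n := by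
    apply Monoid.Coprod.hom_ext
    · ext x
      simp [μ, exponentSum]
    · ext j
      simp [μ, exponentSum]
  have h2 : exponentMatrix (fun i => μ (w i)) = exponentMatrix w := by
    ext i j
    have := DFunLike.congr_fun h1 (w i)
    simp only [MonoidHom.comp_apply] at this
    simp [exponentMatrix, this]
  obtain ⟨H, _, φ, x, hφ, hx⟩ := h m n (fun i => μ (w i)) (by
    unfold NonsingularOver at hw ⊢
    rw [h2]
    exact hw)
  refine ⟨H, inferInstance, φ.comp f, x, hφ.comp hf, fun i => ?_⟩
  rw [← hx i]
  have h3 : Monoid.Coprod.lift (φ.comp f) (FreeGroup.lift x) =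
      (Monoid.Coprod.lift φ (FreeGroup.lift x)).comp μ := by
    apply Monoid.Coprod.hom_ext
    · ext k
      simp [μ]
    · ext j
      simp [μ]
  rw [h3]
  rfl

/-- the localisation theorem over a field `F` -/
theorem systemsSolvable_iff_local (F : Type) [Field F] (G : Type u) [Group G] :
    SystemsSolvable F G ↔
      ∀ K : Subgroup G, K.FG → (¬ ∃ f : K →* Multiplicative F, f ≠ 1) → SystemsSolvable F K := by
  constructor
  · intro h K _ _
    exact systemsSolvable_of_injective K.subtype K.subtype_injective h
  · intro h
    refine systemsSolvable_of_local F G fun K hK => ?_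
    by_cases hm : ∃ f : K →* Multiplicative F, f ≠ 1
    · exact Or.inr hm
    · exact Or.inl (h K hK hm)

/-- a subgroup of an extension with locally indicable quotient either lies in the kernel or has
a nontrivial homomorphism to the additive group of `F` -/
theorem systemsSolvable_extension (F : Type) [Field F] (G : Type u) [Group G] (N : Subgroup G)
    [N.Normal] (hN : SystemsSolvable F N)
    (hQ : ∀ L : Subgroup (G ⧸ N), L.FG → L ≠ ⊥ → ∃ f : L →* Multiplicative F, f ≠ 1) :
    SystemsSolvable F G := by
  rw [systemsSolvable_iff_local]
  intro K hK hm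
  have hKN : K ≤ N := by
    by_contra hcon
    apply hm
    let L : Subgroup (G ⧸ N) := K.map (QuotientGroup.mk' N)
    have hL : L ≠ ⊥ := by
      intro h
      apply hcon
      intro k hk
      have : (QuotientGroup.mk' N) k ∈ L := ⟨k, hk, rfl⟩
      rw [h, Subgroup.mem_bot] at this
      exact (QuotientGroup.eq_one_iff k).1 this
    have hKfg : Group.FG K := (Group.fg_iff_subgroup_fg K).2 hK
    have hLfg : Group.FG L :=
      Group.fg_of_surjective ((QuotientGroup.mk' N).subgroupMap_surjective K)
    obtain ⟨f, hf⟩ := hQ L ((Group.fg_iff_subgroup_fg L).1 hLfg) hL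
    refine ⟨f.comp ((QuotientGroup.mk' N).subgroupMap K), fun h => hf ?_⟩
    ext x
    obtain ⟨k, rfl⟩ := (QuotientGroup.mk' N).subgroupMap_surjective K x
    exact congrArg _ (DFunLike.congr_fun h k)
  exact systemsSolvable_of_injective (Subgroup.inclusion hKN) (Subgroup.inclusion_injective hKN) hN

end Vale.Agent.P174
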