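import Mathlib

/-!
# Words with coefficients, lifts of words, and certificates (helper file for P174)
-/

namespace Vale.Agent.P174

universe u v

/-- evaluation of a single letter -/
def evL {G J H : Type*} [Group H] (φ : G → H) (h : J → H) : G ⊕ (J × Bool) → H
  | .inl g => φ g
  | .inr (j, true) => h j
  | .inr (j, false) => (h j)⁻¹

/-- evaluation of a word -/
def ev {G J H : Type*} [Group H] (φ : G → H) (h : J → H) (l : List (G ⊕ (J × Bool))) : H :=
  (l.map (evL φ h)).prod

section ev
variable {G J H : Type*} [Group H] (φ : G → H) (h : J → H)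

@[simp] lemma ev_nil : ev φ h [] = 1 := rfl

@[simp] lemma ev_cons (a : G ⊕ (J × Bool)) (l : List (G ⊕ (J × Bool))) :
    ev φ h (a :: l) = evL φ h a * ev φ h l := by
  simp [ev]

@[simp] lemma ev_append (l l' : List (G ⊕ (J × Bool))) :
    ev φ h (l ++ l') = ev φ h l * ev φ h l' := by
  simp [ev]

lemma map_ev {H' : Type*} [Group H'] (f : H →* H') (l : List (G ⊕ (J × Bool))) :
    f (ev φ h l) = ev (fun g => f (φ g)) (fun j => f (h j)) l := by
  induction l with
  | nil => simp
  | cons a l ih =>
    rw [ev_cons, ev_cons, map_mul, ih]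
    rcases a with g | ⟨j, b⟩
    · rfl
    · cases b <;> simp [evL]

lemma ev_congr {φ' : G → H} {l : List (G ⊕ (J × Bool))}
    (hl : ∀ g, Sum.inl g ∈ l → φ g = φ' g) : ev φ h l = ev φ' h l := by
  induction l with
  | nil => simp
  | cons a l ih =>
    rw [ev_cons, ev_cons, ih (fun g hg => hl g (List.mem_cons_of_mem _ hg))]
    rcases a with g | ⟨j, b⟩
    · simp [evL, hl g (List.mem_cons_self)]
    · cases b <;> simp [evL]

end ev

/-- the free product `G * F_J` -/
abbrev UG (G : Type u) [Group G] (J : Type v) : Type (max u v) := Monoid.Coprod G (FreeGroup J)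

/-- the element of `G * F_J` given by a word -/
abbrev evU {G : Type u} [Group G] {J : Type v} (l : List (G ⊕ (J × Bool))) : UG G J :=
  ev (fun g => (Monoid.Coprod.inl g : UG G J)) (fun j => Monoid.Coprod.inr (FreeGroup.of j)) l

lemma exists_word {G : Type u} [Group G] {J : Type v} (x : UG G J) :
    ∃ l : List (G ⊕ (J × Bool)), evU l = x := by
  induction x using Monoid.Coprod.induction_on with
  | inl g => exact ⟨[.inl g], by simp [evL]⟩
  | inr f =>
    induction f using FreeGroup.induction_on with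
    | C1 => exact ⟨[], by simp⟩
    | of j => exact ⟨[.inr (j, true)], by simp [evL]⟩
    | inv_of j => exact ⟨[.inr (j, false)], by simp [evL]⟩
    | mul x y hx hy =>
      obtain ⟨l, hl⟩ := hx
      obtain ⟨l', hl'⟩ := hy
      refine ⟨l ++ l', ?_⟩
      unfold evU at hl hl' ⊢
      rw [ev_append, hl, hl', map_mul]
  | mul x y hx hy =>
    obtain ⟨l, hl⟩ := hx
    obtain ⟨l', hl'⟩ := hy
    refine ⟨l ++ l', ?_⟩
    unfold evU at hl hl' ⊢
    rw [ev_append, hl, hl']

/-- evaluation of a certificate: the product of the conjugates `u w_i^{±1} u⁻¹` -/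
def evC {G J I H : Type*} [Group H] (φ : G → H) (h : J → H) (w : I → List (G ⊕ (J × Bool)))
    (E : List (List (G ⊕ (J × Bool)) × I × Bool)) : H :=
  (E.map fun c => ev φ h c.1 *
    (if c.2.2 then ev φ h (w c.2.1) else (ev φ h (w c.2.1))⁻¹) * (ev φ h c.1)⁻¹).prod

section evC
variable {G J I H : Type*} [Group H] (φ : G → H) (h : J → H) (w : I → List (G ⊕ (J × Bool)))

@[simp] lemma evC_nil : evC φ h w [] = 1 := rfl

@[simp] lemma evC_cons (c : List (G ⊕ (J × Bool)) × I × Bool)
    (E : List (List (G ⊕ (J × Bool)) × I × Bool)) :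
    evC φ h w (c :: E) = (ev φ h c.1 *
      (if c.2.2 then ev φ h (w c.2.1) else (ev φ h (w c.2.1))⁻¹) * (ev φ h c.1)⁻¹) *
      evC φ h w E := by
  simp [evC]

@[simp] lemma evC_append (E E' : List (List (G ⊕ (J × Bool)) × I × Bool)) :
    evC φ h w (E ++ E') = evC φ h w E * evC φ h w E' := by
  simp [evC]

lemma map_evC {H' : Type*} [Group H'] (f : H →* H')
    (E : List (List (G ⊕ (J × Bool)) × I × Bool)) :
    f (evC φ h w E) = evC (fun g => f (φ g)) (fun j => f (h j)) w E := by
  induction E with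
  | nil => simp
  | cons c E ih =>
    rw [evC_cons, evC_cons, map_mul, ih, map_mul, map_mul, map_inv, map_ev]
    congr 3
    split_ifs
    · rw [map_ev]
    · rw [map_inv, map_ev]

/-- all the words occurring in a certificate have property `P` -/
def WordsOf (w : I → List (G ⊕ (J × Bool))) (E : List (List (G ⊕ (J × Bool)) × I × Bool))
    (P : List (G ⊕ (J × Bool)) → Prop) : Prop :=
  ∀ c ∈ E, P c.1 ∧ P (w c.2.1)

lemma evC_congr {φ' : G → H} {E : List (List (G ⊕ (J × Bool)) × I × Bool)}
    (hE : WordsOf w E (fun l => ∀ g, Sum.inl g ∈ l → φ g = φ' g)) :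
    evC φ h w E = evC φ' h w E := by
  induction E with
  | nil => simp
  | cons c E ih =>
    rw [evC_cons, evC_cons, ih (fun c hc => hE c (List.mem_cons_of_mem _ hc))]
    obtain ⟨h1, h2⟩ := hE c List.mem_cons_self
    rw [ev_congr φ h h1, ev_congr φ h h2]

lemma evC_eq_one_of_relators {E : List (List (G ⊕ (J × Bool)) × I × Bool)}
    (hE : ∀ c ∈ E, ev φ h (w c.2.1) = 1) : evC φ h w E = 1 := by
  induction E with
  | nil => simp
  | cons c E ih =>
    rw [evC_cons, ih (fun c hc => hE c (List.mem_cons_of_mem _ hc)), hE c List.mem_cons_self]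
    simp

end evC

/-- every element of the normal closure of the relators has a certificate -/
lemma exists_certificate {G : Type u} [Group G] {J : Type v} {I : Type*}
    (w : I → List (G ⊕ (J × Bool))) (x : UG G J)
    (hx : x ∈ Subgroup.normalClosure (Set.range fun i => (evU (w i) : UG G J))) :
    ∃ E, evC (fun g => (Monoid.Coprod.inl g : UG G J))
      (fun j => Monoid.Coprod.inr (FreeGroup.of j)) w E = x := by
  refine Subgroup.closure_induction (p := fun x _ => ∃ E,
    evC (fun g => (Monoid.Coprod.inl g : UG G J))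
      (fun j => Monoid.Coprod.inr (FreeGroup.of j)) w E = x) ?_ ?_ ?_ ?_ hx
  · intro y hy
    rw [Group.mem_conjugatesOfSet_iff] at hy
    obtain ⟨a, ⟨i, rfl⟩, hy⟩ := hy
    rw [isConj_iff] at hy
    obtain ⟨c, rfl⟩ := hy
    obtain ⟨l, rfl⟩ := exists_word c
    exact ⟨[(l, i, true)], by simp⟩
  · exact ⟨[], rfl⟩
  · rintro x y _ _ ⟨E, rfl⟩ ⟨E', rfl⟩
    exact ⟨E ++ E', by simp⟩
  · rintro x _ ⟨E, rfl⟩
    clear hx
    rename_i hx'
    clear hx'
    induction E with
    | nil => exact ⟨[], by simp⟩
    | cons c E ih =>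
      obtain ⟨E', hE'⟩ := ih
      refine ⟨E' ++ [(c.1, c.2.1, !c.2.2)], ?_⟩
      rw [evC_append, hE', evC_cons, evC_cons, mul_inv_rev]
      congr 1
      rcases hc : c.2.2 <;> simp [mul_assoc]

end Vale.Agent.P174
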