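import Vale.Agent.Lib.P174.Main

/-!
# The covering principle (helper file for P174)
-/

namespace Vale.Agent.P174

universe u v

open MonoidAlgebra (single)

section
variable {G : Type u} [Group G] {Q : Type v} [Group Q]

/-- a transversal function for a homomorphism -/
lemma exists_transversal (φ : G →* Q) :
    ∃ τ : Q → G, ∀ q g, τ q * g * (τ (q * φ g))⁻¹ ∈ φ.ker := by
  classical
  have h1 : ∀ q : Q, ∃ x : G, ((QuotientGroup.mk q : Q ⧸ φ.range).out)⁻¹ * q = φ x := by
    intro q
    have : ((QuotientGroup.mk q : Q ⧸ φ.range).out)⁻¹ * q ∈ φ.range := by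
      rw [← QuotientGroup.eq]
      exact Quotient.out_eq' _
    obtain ⟨x, hx⟩ := this
    exact ⟨x, hx.symm⟩
  choose τ hτ using h1
  refine ⟨τ, fun q g => ?_⟩
  have h2 : (QuotientGroup.mk (q * φ g) : Q ⧸ φ.range) = QuotientGroup.mk q := by
    rw [QuotientGroup.eq]
    refine ⟨g⁻¹, ?_⟩
    simp
  have h3 := hτ (q * φ g)
  rw [h2, ← mul_assoc, hτ q] at h3
  rw [MonoidHom.mem_ker, map_mul, map_mul, map_inv, ← h3]
  simp

lemma letters_liftWord (φ : G →* Q) (τ : Q → G) (hτ : ∀ q g, τ q * g * (τ (q * φ g))⁻¹ ∈ φ.ker)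
    {J : Type*} (ρ : J → Q) (s : Q) (l : List (G ⊕ (J × Bool))) (g : G)
    (hg : Sum.inl g ∈ liftWord τ φ ρ s l) : g ∈ φ.ker := by
  induction l generalizing s with
  | nil => simp at hg
  | cons a l ih =>
    rcases a with x | ⟨j, b⟩
    · rw [liftWord, List.mem_cons] at hg
      rcases hg with hg | hg
      · rw [Sum.inl.inj hg]
        exact hτ _ _
      · exact ih _ hg
    · cases b
      · rw [liftWord, List.mem_cons] at hg
        rcases hg with hg | hg
        · exact absurd hg (by simp)
        · exact ih _ hg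
      · rw [liftWord, List.mem_cons] at hg
        rcases hg with hg | hg
        · exact absurd hg (by simp)
        · exact ih _ hg

end

/-- Fox derivations agree with the combinatorial ones -/
lemma fox_eq (F : Type) [Field F] {G : Type u} {Q : Type v} [Group G] [Group Q] {n : ℕ}
    (ρ : Monoid.Coprod G (FreeGroup (Fin n)) →* Q)
    (D : Monoid.Coprod G (FreeGroup (Fin n)) → Fin n → MonoidAlgebra F Q)
    (hmul : ∀ u v j, D (u * v) j = D u j + MonoidAlgebra.of F Q (ρ u) * D v j)
    (hcoef : ∀ g j, D (Monoid.Coprod.inl g) j = 0)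
    (hvar : ∀ i j, D (Monoid.Coprod.inr (FreeGroup.of i)) j = if i = j then 1 else 0)
    (l : List (G ⊕ (Fin n × Bool))) (j : Fin n) :
    fox F (fun g => ρ (Monoid.Coprod.inl g)) (fun i => ρ (Monoid.Coprod.inr (FreeGroup.of i))) l j
      = D (evU l) j := by
  have h1 : D 1 j = 0 := by
    have := hmul 1 1 j
    rw [map_one, map_one, one_mul, one_mul] at this
    exact left_eq_add.mp this
  induction l with
  | nil => simp [fox, h1]
  | cons a l ih =>
    unfold evU at ih ⊢
    rw [ev_cons, hmul, ← ih]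
    rcases a with x | ⟨i, b⟩
    · simp [fox, evL, hcoef]
    · cases b
      · have h2 : D ((Monoid.Coprod.inr (FreeGroup.of i))⁻¹) j =
            - (MonoidAlgebra.of F Q (ρ (Monoid.Coprod.inr (FreeGroup.of i)))⁻¹ *
              (if i = j then 1 else 0)) := by
          have h3 := hmul ((Monoid.Coprod.inr (FreeGroup.of i))⁻¹)
            (Monoid.Coprod.inr (FreeGroup.of i)) j
          rw [inv_mul_cancel, h1, hvar, map_inv] at h3
          exact (eq_neg_of_add_eq_zero_left h3.symm)
        rw [evL, h2]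
        simp only [fox, map_inv, MonoidAlgebra.of_apply, Finsupp.smul_apply, Finsupp.sub_apply,
          smul_eq_mul, Finsupp.single_apply, mul_sub]
        abel
      · rw [evL, hvar]
        simp only [fox, MonoidAlgebra.of_apply, Finsupp.smul_apply, Finsupp.add_apply,
          smul_eq_mul, Finsupp.single_apply]

/-- **The covering principle.** -/
theorem solvable_of_cover (F : Type) [Field F] {G : Type u} {Q : Type v} [Group G] [Group Q]
    {m n : ℕ} (w : Fin m → Monoid.Coprod G (FreeGroup (Fin n)))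
    (ρ : Monoid.Coprod G (FreeGroup (Fin n)) →* Q) (hρ : ∀ i, ρ (w i) = 1)
    (D : Monoid.Coprod G (FreeGroup (Fin n)) → Fin n → MonoidAlgebra F Q)
    (hmul : ∀ u v j, D (u * v) j = D u j + MonoidAlgebra.of F Q (ρ u) * D v j)
    (hcoef : ∀ g j, D (Monoid.Coprod.inl g) j = 0)
    (hvar : ∀ i j, D (Monoid.Coprod.inr (FreeGroup.of i)) j = if i = j then 1 else 0)
    (hind : LinearIndependent (MonoidAlgebra F Q) (fun i => D (w i)))
    (hN : SystemsSolvable F (ρ.comp Monoid.Coprod.inl).ker) : SolvableOver w := by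
  classical
  choose l hl using fun i => exists_word (w i)
  apply solvableOver_of_forall
  intro g hg
  have hr : Set.range w = Set.range fun i => (evU (l i) : UG G (Fin n)) := by
    congr 1
    funext i
    exact (hl i).symm
  rw [hr] at hg
  obtain ⟨E, hE⟩ := exists_certificate l _ hg
  let φ : G →* Q := ρ.comp Monoid.Coprod.inl
  let ρx : Fin n → Q := fun i => ρ (Monoid.Coprod.inr (FreeGroup.of i))
  obtain ⟨τ, hτ⟩ := exists_transversal φ
  have hpot : ∀ i, ev φ ρx (l i) = 1 := by
    intro i
    rw [← hρ i, ← hl i, map_ev]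
    rfl
  have hlift := lift_certificate τ φ ρx l E g hE ⊤ (fun c _ => ⟨fun _ _ => trivial,
    fun _ _ => trivial⟩) (fun a b => map_mul φ _ _) (fun c _ => hpot _)
  have hfox : LinearIndependent (MonoidAlgebra F Q) (fun i => fox F φ ρx (l i)) := by
    have h1 : (fun i => D (w i)) = (fun i => ((fox F φ ρx (l i) : Fin n →₀ MonoidAlgebra F Q) :
        Fin n → MonoidAlgebra F Q)) := by
      funext i j
      rw [← hl i]
      exact (fox_eq F ρ D hmul hcoef hvar (l i) j).symm
    rw [h1] at hind
    have h2 : (fun i => ((fox F φ ρx (l i) : Fin n →₀ MonoidAlgebra F Q) :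
        Fin n → MonoidAlgebra F Q)) =
        (Finsupp.linearEquivFunOnFinite (MonoidAlgebra F Q) (MonoidAlgebra F Q) (Fin n)) ∘
          (fun i => fox F φ ρx (l i)) := by
      funext i
      rfl
    rw [h2] at hind
    exact LinearIndependent.of_comp
      (Finsupp.linearEquivFunOnFinite (MonoidAlgebra F Q) (MonoidAlgebra F Q)
        (Fin n)).toLinearMap hind
  have hind' := linearIndependent_lift F τ φ ρx l hfox
  have hfin := base_case F (fun p : Fin m × Q => liftWord τ φ ρx p.2 (l p.1)) hind'
    (liftCert τ φ ρx E) _ hlift φ.ker ?_ hN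
  · have h5 : τ 1 * g = τ 1 := mul_inv_eq_one.mp hfin
    exact mul_eq_left.mp h5
  · intro c hc
    unfold liftCert at hc
    rw [List.mem_map] at hc
    obtain ⟨d, _, rfl⟩ := hc
    exact ⟨fun x hx => letters_liftWord φ τ hτ ρx _ _ x hx,
      fun x hx => letters_liftWord φ τ hτ ρx _ _ x hx⟩

end Vale.Agent.P174
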