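import Mathlib

/-!
# Systems of equations over groups: the definitions used in the statements (P174)
-/

namespace Vale.Agent.P174

universe u

/-- The homomorphism `G * F_n → ℤ^n` that kills `G` and sends the `j`-th free generator `x_j` to
the `j`-th standard basis vector `e_j`. -/
noncomputable def exponentSum (G : Type u) [Group G] (n : ℕ) :
    Monoid.Coprod G (FreeGroup (Fin n)) →* Multiplicative (Fin n → ℤ) :=
  Monoid.Coprod.lift 1 (FreeGroup.lift fun j => Multiplicative.ofAdd (Pi.single j 1))

/-- The exponent-sum matrix of a system `w_1, …, w_m ∈ G * F_n`. -/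
noncomputable def exponentMatrix {G : Type u} [Group G] {m n : ℕ}
    (w : Fin m → Monoid.Coprod G (FreeGroup (Fin n))) : Matrix (Fin m) (Fin n) ℤ :=
  Matrix.of fun i j => Multiplicative.toAdd (exponentSum G n (w i)) j

/-- The system is nonsingular over the field `F`: its exponent-sum matrix has rank `m` over `F`.
For `F = ℚ` this is nonsingularity; for `F = ZMod p` it is nonsingularity mod `p`. -/
def NonsingularOver (F : Type) [Field F] {G : Type u} [Group G] {m n : ℕ}
    (w : Fin m → Monoid.Coprod G (FreeGroup (Fin n))) : Prop :=
  ((exponentMatrix w).map (Int.cast : ℤ → F)).rank = m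

/-- The system `w_1 = 1, …, w_m = 1` is solvable over `G`: there are a group `H`, an injective
homomorphism `G → H` and `h_1, …, h_n ∈ H` at which every `w_i` evaluates to `1`. -/
def SolvableOver {G : Type u} [Group G] {m n : ℕ}
    (w : Fin m → Monoid.Coprod G (FreeGroup (Fin n))) : Prop :=
  ∃ (H : Type u) (_ : Group H) (φ : G →* H) (h : Fin n → H),
    Function.Injective φ ∧ ∀ i, Monoid.Coprod.lift φ (FreeGroup.lift h) (w i) = 1

/-- Every finite system over `G` that is nonsingular over `F` is solvable over `G`.
`SystemsSolvable ℚ G` says that Howie's conjecture holds for `G`. -/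
def SystemsSolvable (F : Type) [Field F] (G : Type u) [Group G] : Prop :=
  ∀ (m n : ℕ) (w : Fin m → Monoid.Coprod G (FreeGroup (Fin n))),
    NonsingularOver F w → SolvableOver w

end Vale.Agent.P174
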