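import Vale.Agent.Lib.P174.Lift

/-!
# Exponent vectors, Fox derivatives and independence of lifted rows (helper file for P174)
-/

namespace Vale.Agent.P174

universe u v

open MonoidAlgebra (single)

section expVec
variable (F : Type*) [Field F] {G : Type*} {J : Type*}

/-- exponent vector of a letter -/
noncomputable def expL : G ⊕ (J × Bool) → (J →₀ F)
  | .inl _ => 0
  | .inr (j, true) => Finsupp.single j 1
  | .inr (j, false) => - Finsupp.single j 1

/-- exponent vector of a word -/
noncomputable def expVec (l : List (G ⊕ (J × Bool))) : J →₀ F := (l.map (expL F)).sum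

@[simp] lemma expVec_nil : expVec F ([] : List (G ⊕ (J × Bool))) = 0 := rfl

@[simp] lemma expVec_cons (a : G ⊕ (J × Bool)) (l : List (G ⊕ (J × Bool))) :
    expVec F (a :: l) = expL F a + expVec F l := by
  simp [expVec]

end expVec

section fox
variable (F : Type*) [Field F] {G : Type*} {J Q : Type*} [Group Q] [Group G]
variable (τ : Q → G) (φ : G → Q) (ρ : J → Q)

/-- the Fox derivatives of a word, as a finitely supported vector over the group algebra -/
noncomputable def fox : List (G ⊕ (J × Bool)) → (J →₀ MonoidAlgebra F Q)
  | [] => 0
  | .inl g :: l => (single (φ g) 1 : MonoidAlgebra F Q) • fox l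
  | .inr (j, true) :: l =>
    Finsupp.single j 1 + (single (ρ j) 1 : MonoidAlgebra F Q) • fox l
  | .inr (j, false) :: l =>
    (single (ρ j)⁻¹ 1 : MonoidAlgebra F Q) • (fox l - Finsupp.single j 1)

/-- the `F`-linear map `F[J × Q] → (F[Q])[J]` -/
noncomputable def psi (J : Type*) (Q : Type*) [Group Q] :
    ((J × Q) →₀ F) →ₗ[F] (J →₀ MonoidAlgebra F Q) :=
  Finsupp.linearCombination F
    (fun p : J × Q => (Finsupp.single p.1 (single p.2 1 : MonoidAlgebra F Q)))

lemma psi_expVec_liftWord (s : Q) (l : List (G ⊕ (J × Bool))) :
    psi F J Q (expVec F (liftWord τ φ ρ s l)) =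
      (single s 1 : MonoidAlgebra F Q) • fox F φ ρ l := by
  induction l generalizing s with
  | nil => simp [fox]
  | cons a l ih =>
    rcases a with g | ⟨j, b⟩
    · have e1 : psi F J Q (expL F (Sum.inl (τ s * g * (τ (s * φ g))⁻¹))) = 0 := by
        simp [expL]
      rw [liftWord, expVec_cons, map_add, ih, fox, smul_smul, e1, zero_add,
        MonoidAlgebra.single_mul_single, one_mul]
    · cases b
      · have e1 : psi F J Q (expL F (G := G) (Sum.inr ((j, s * (ρ j)⁻¹), false))) =
            - Finsupp.single j (single (s * (ρ j)⁻¹) 1 : MonoidAlgebra F Q) := by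
          simp [expL, psi]
        rw [liftWord, expVec_cons, map_add, ih, fox, smul_smul, e1,
          MonoidAlgebra.single_mul_single, one_mul, smul_sub, Finsupp.smul_single, smul_eq_mul,
          mul_one, neg_add_eq_sub]
      · have e1 : psi F J Q (expL F (G := G) (Sum.inr ((j, s), true))) =
            Finsupp.single j (single s 1 : MonoidAlgebra F Q) := by
          simp [expL, psi]
        rw [liftWord, expVec_cons, map_add, ih, fox, smul_add, smul_smul, e1,
          MonoidAlgebra.single_mul_single, one_mul, Finsupp.smul_single, smul_eq_mul, mul_one]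

/-- if the Fox rows are left linearly independent over the group algebra, then all the lifted
exponent vectors are linearly independent -/
lemma linearIndependent_lift {I : Type*} (w : I → List (G ⊕ (J × Bool)))
    (h : LinearIndependent (MonoidAlgebra F Q) (fun i => fox F φ ρ (w i))) :
    LinearIndependent F
      (fun p : I × Q => expVec F (liftWord τ φ ρ p.2 (w p.1))) := by
  refine LinearIndependent.of_comp (psi F J Q) ?_
  have hb : LinearIndependent F (fun q : Q => (single q 1 : MonoidAlgebra F Q)) := by
    have := (MonoidAlgebra.basis Q F).linearIndependent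
    have e : (fun q : Q => (single q 1 : MonoidAlgebra F Q)) = ⇑(MonoidAlgebra.basis Q F) := by
      funext q
      simp
    rw [e]
    exact this
  have h1 := linearIndependent_smul (R := F) (S := MonoidAlgebra F Q)
    (A := J →₀ MonoidAlgebra F Q) hb h
  have h2 := h1.comp (Prod.swap : I × Q → Q × I) Prod.swap_injective
  have h3 : (psi F J Q) ∘ (fun p : I × Q => expVec F (liftWord τ φ ρ p.2 (w p.1))) =
      (fun p : Q × I => (single p.1 1 : MonoidAlgebra F Q) • fox F φ ρ (w p.2)) ∘
        (Prod.swap : I × Q → Q × I) := by
    funext p
    exact psi_expVec_liftWord F τ φ ρ p.2 (w p.1)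
  rw [h3]
  exact h2

end fox

section aug
variable (F : Type*) [Field F] {G : Type*} {J Q : Type*} [Group Q] [Group G]
variable (τ : Q → G) (φ : G → Q) (ρ : J → Q)

/-- the augmentation -/
noncomputable def aug (Q : Type*) [Group Q] : MonoidAlgebra F Q →ₐ[F] F :=
  MonoidAlgebra.lift F F Q (1 : Q →* F)

@[simp] lemma aug_single (q : Q) (c : F) : aug F Q (single q c) = c := by
  simp [aug]

omit [Group G] in
lemma aug_fox (l : List (G ⊕ (J × Bool))) (j : J) :
    aug F Q (fox F φ ρ l j) = expVec F l j := by
  classical
  induction l with
  | nil => simp [fox]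
  | cons a l ih =>
    rcases a with g | ⟨k, b⟩
    · simp [fox, ih, expL]
    · cases b
      · simp only [fox, Finsupp.coe_smul, Finsupp.coe_sub, Pi.smul_apply, Pi.sub_apply,
          smul_eq_mul, map_mul, aug_single, map_sub, ih, one_mul, expVec_cons, expL,
          Finsupp.coe_add, Finsupp.coe_neg, Pi.add_apply, Pi.neg_apply]
        by_cases hk : k = j
        · subst hk; simp [sub_eq_add_neg, add_comm]
        · simp [hk]
      · simp only [fox, Finsupp.coe_smul, Finsupp.coe_add, Pi.smul_apply, Pi.add_apply,
          smul_eq_mul, map_mul, aug_single, map_add, ih, one_mul, expVec_cons, expL]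
        by_cases hk : k = j
        · subst hk; simp
        · simp [hk]

end aug

/-- independence over a commutative algebra from independence after augmentation -/
lemma linearIndependent_of_aug {F A : Type*} [Field F] [CommRing A] [Algebra F A]
    (ε : A →ₐ[F] F) (hε : ∀ x, ε x ≠ 0 → x ∈ nonZeroDivisors A) {I J : Type*}
    (v : I → (J →₀ A))
    (hv : LinearIndependent F (fun i => (v i).mapRange ε (map_zero ε))) :
    LinearIndependent A v := by
  classical
  rw [linearIndependent_iff_finset_linearIndependent]
  intro s
  have hv' : LinearIndependent F (fun i : s => (v i).mapRange ε (map_zero ε)) :=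
    hv.comp _ Subtype.val_injective
  -- a left inverse
  obtain ⟨B, hB⟩ := LinearMap.exists_leftInverse_of_injective
    (Finsupp.linearCombination F (fun i : s => (v i).mapRange ε (map_zero ε)))
    (LinearMap.ker_eq_bot.mpr hv')
  have hB' : ∀ i : s, B ((v i).mapRange ε (map_zero ε)) = Finsupp.single i 1 := by
    intro i
    have := LinearMap.congr_fun hB (Finsupp.single i 1)
    simpa using this
  -- extend scalars
  let BA : (J →₀ A) →ₗ[A] (s → A) :=
    Finsupp.linearCombination A (fun j : J => fun i : s =>
      algebraMap F A (B (Finsupp.single j 1) i))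
  let M : Matrix s s A := Matrix.of fun i => BA (v i)
  have hM : ε.toRingHom.mapMatrix M = 1 := by
    ext i k
    have h1 : ε (BA (v i) k) = B ((v i).mapRange ε (map_zero ε)) k := by
      have h2 : ∀ x : J →₀ A, ε (BA x k) = B (x.mapRange ε (map_zero ε)) k := by
        intro x
        induction x using Finsupp.induction_linear with
        | zero => simp
        | add x y hx hy =>
          rw [map_add, Pi.add_apply, map_add, hx, hy, Finsupp.mapRange_add (by simp)]
          simp
        | single j a =>
          simp only [BA, Finsupp.linearCombination_single, Pi.smul_apply, smul_eq_mul, map_mul,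
            AlgHom.commutes, Algebra.algebraMap_self, RingHom.id_apply,
            Finsupp.mapRange_single]
          have : (Finsupp.single j (ε a) : J →₀ F) = ε a • Finsupp.single j 1 := by simp
          rw [this, map_smul]
          simp
      exact h2 _
    show ε (BA (v i) k) = (1 : Matrix s s F) i k
    rw [h1, hB' i, Matrix.one_apply, Finsupp.single_apply]
  have hdet : ε M.det = 1 := by
    have := RingHom.map_det ε.toRingHom M
    rw [hM, Matrix.det_one] at this
    exact this
  have hnz : M.det ∈ nonZeroDivisors A := hε _ (by rw [hdet]; exact one_ne_zero)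
  rw [Fintype.linearIndependent_iff]
  intro c hc i
  have h1 : Matrix.vecMul c M = 0 := by
    have h2 := congrArg BA hc
    rw [map_sum, map_zero] at h2
    funext k
    have h3 := congrFun h2 k
    simp only [Finset.sum_apply, Pi.zero_apply, map_smul, Pi.smul_apply, smul_eq_mul] at h3
    show Matrix.vecMul c M k = (0 : A)
    rw [← h3]
    rfl
  have h4 : c = 0 :=
    (Matrix.Nondegenerate.of_det_mem_nonZeroDivisors hnz).separatingLeft.eq_zero_of_vecMul_eq_zero h1
  exact congrFun h4 i

/-- elements of nonzero augmentation of `F[F]` are not zero divisors -/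
lemma aug_nonZeroDivisors (F : Type*) [Field F] (x : MonoidAlgebra F (Multiplicative F))
    (hx : aug F (Multiplicative F) x ≠ 0) : x ∈ nonZeroDivisors (MonoidAlgebra F (Multiplicative F)) := by
  obtain ⟨p, hp⟩ := CharP.exists F
  rcases CharP.char_is_prime_or_zero F p with hprime | h0
  · have : Fact p.Prime := ⟨hprime⟩
    have : CharP (MonoidAlgebra F (Multiplicative F)) p := by
      refine charP_of_injective_algebraMap (R := F) ?_ p
      exact FaithfulSMul.algebraMap_injective F _
    have key : ∀ y : MonoidAlgebra F (Multiplicative F),
        y ^ p = algebraMap F _ ((aug F (Multiplicative F) y) ^ p) := by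
      intro y
      induction y using MonoidAlgebra.induction_on with
      | of m =>
        simp only [MonoidAlgebra.of_apply, MonoidAlgebra.single_pow, one_pow, aug_single, map_one]
        have : m ^ p = 1 := by
          apply Multiplicative.toAdd.injective
          simp
        rw [this]
        exact MonoidAlgebra.one_def.symm
      | add a b ha hb =>
        rw [add_pow_char, ha, hb, map_add, add_pow_char, map_add]
      | smul r a ha =>
        rw [smul_pow, ha, map_smul, smul_eq_mul, mul_pow, map_mul, Algebra.smul_def]
    have hunit : IsUnit (x ^ p) := by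
      rw [key]
      exact (IsUnit.mk0 _ (pow_ne_zero _ hx)).map _
    exact (isUnit_pow_iff hprime.ne_zero |>.mp hunit).mem_nonZeroDivisors
  · subst h0
    have : CharZero F := CharP.charP_to_charZero F
    have : Module ℚ F := inferInstance
    have : TwoUniqueSums F := inferInstance
    have : NoZeroDivisors (MonoidAlgebra F (Multiplicative F)) := inferInstance
    apply mem_nonZeroDivisors_of_ne_zero
    rintro rfl
    simp at hx

end Vale.Agent.P174
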