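import Vale.Agent.Lib.P174.Core

/-!
# Amalgamation, the wreath group and lifting of words (helper file for P174)
-/

namespace Vale.Agent.P174

universe u v

/-- amalgamation: two groups containing a common subgroup embed in a common group -/
lemma exists_amalgam_aux {G H : Type u} [Group G] [Group H] {K : Type v} [Group K] (ι : K →* G)
    (hι : Function.Injective ι) (θ : K →* H) (hθ : Function.Injective θ) :
    ∃ (M : Type (max u v)) (_ : Group M) (a : G →* M) (b : H →* M), Function.Injective a ∧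
      Function.Injective b ∧ ∀ k : K, a (ι k) = b (θ k) := by
  let fam : Bool → Type u := fun b => cond b G H
  let inst : ∀ b, Group (fam b) := fun b => by
    cases b
    · exact (inferInstance : Group H)
    · exact (inferInstance : Group G)
  let φ : ∀ b, K →* fam b := fun b => by
    cases b
    · exact θ
    · exact ι
  have hφ : ∀ b, Function.Injective (φ b) := by
    intro b
    cases b
    · exact hθ
    · exact hι
  refine ⟨Monoid.PushoutI φ, inferInstance, (Monoid.PushoutI.of (φ := φ) true : fam true →* _),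
    (Monoid.PushoutI.of (φ := φ) false : fam false →* _),
    Monoid.PushoutI.of_injective hφ true, Monoid.PushoutI.of_injective hφ false, ?_⟩
  intro k
  have h1 := Monoid.PushoutI.of_apply_eq_base φ true k
  have h2 := Monoid.PushoutI.of_apply_eq_base φ false k
  exact h1.trans h2.symm

/-- amalgamation: two groups containing a common subgroup embed in a common group -/
lemma exists_amalgam {G : Type u} {H : Type v} [Group G] [Group H] (K : Subgroup G) (θ : K →* H)
    (hθ : Function.Injective θ) :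
    ∃ (M : Type (max u v)) (_ : Group M) (a : G →* M) (b : H →* M), Function.Injective a ∧
      Function.Injective b ∧ ∀ k : K, a k = b (θ k) := by
  let uG : G ≃* ULift.{v} G := MulEquiv.ulift.symm
  let uH : H ≃* ULift.{u} H := MulEquiv.ulift.symm
  obtain ⟨M, _, a, b, ha, hb, hab⟩ := exists_amalgam_aux
    (uG.toMonoidHom.comp K.subtype) (uG.injective.comp K.subtype_injective)
    (uH.toMonoidHom.comp θ) (uH.injective.comp hθ)
  exact ⟨M, inferInstance, a.comp uG.toMonoidHom, b.comp uH.toMonoidHom, ha.comp uG.injective,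
    hb.comp uH.injective, hab⟩

/-- the transfer lemma: a certificate over `G * F_J` all of whose coefficients lie in `K` can be
evaluated in any group into which `K` embeds. -/
lemma transfer {G : Type u} [Group G] {J : Type*} {I : Type*} (w : I → List (G ⊕ (J × Bool)))
    (E : List (List (G ⊕ (J × Bool)) × I × Bool)) (g : G)
    (hg : evC (fun g => (Monoid.Coprod.inl g : UG G J))
      (fun j => Monoid.Coprod.inr (FreeGroup.of j)) w E = Monoid.Coprod.inl g)
    (K : Subgroup G) (hK : WordsOf w E (fun l => ∀ g, Sum.inl g ∈ l → g ∈ K))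
    {H : Type v} [Group H] (θ : K →* H) (hθ : Function.Injective θ) (θ' : G → H)
    (hθ' : ∀ k : K, θ' k = θ k) (h : J → H) :
    ∃ hgK : g ∈ K, evC θ' h w E = θ ⟨g, hgK⟩ := by
  have hgK : g ∈ K := by
    have := congrArg (Monoid.Coprod.lift (MonoidHom.id G) (FreeGroup.lift fun _ => (1 : G))) hg
    rw [map_evC] at this
    simp only [Monoid.Coprod.lift_apply_inl, MonoidHom.id_apply, Monoid.Coprod.lift_apply_inr,
      FreeGroup.lift_apply_of] at this
    rw [← this]
    clear hg this
    have key : ∀ l : List (G ⊕ (J × Bool)), (∀ g, Sum.inl g ∈ l → g ∈ K) →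
        ev (fun g => g) (fun _ => (1 : G)) l ∈ K := by
      intro l hl
      induction l with
      | nil => simp
      | cons a l ih =>
        rw [ev_cons]
        refine K.mul_mem ?_ (ih fun g hg => hl g (List.mem_cons_of_mem _ hg))
        rcases a with g | ⟨j, b⟩
        · exact hl g List.mem_cons_self
        · cases b <;> simp [evL]
    induction E with
    | nil => simp
    | cons c E ih =>
      rw [evC_cons]
      obtain ⟨h1, h2⟩ := hK c List.mem_cons_self
      refine K.mul_mem ?_ (ih fun c hc => hK c (List.mem_cons_of_mem _ hc))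
      refine K.mul_mem (K.mul_mem (key _ h1) ?_) (K.inv_mem (key _ h1))
      split_ifs
      · exact key _ h2
      · exact K.inv_mem (key _ h2)
  refine ⟨hgK, ?_⟩
  obtain ⟨M, _, a, b, ha, hb, hab⟩ := exists_amalgam K θ hθ
  apply hb
  rw [← hab ⟨g, hgK⟩]
  have h1 := congrArg (Monoid.Coprod.lift a (FreeGroup.lift fun j => b (h j))) hg
  rw [map_evC] at h1
  simp only [Monoid.Coprod.lift_apply_inl, Monoid.Coprod.lift_apply_inr,
      FreeGroup.lift_apply_of] at h1
  rw [map_evC, ← h1]
  apply evC_congr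
  intro c hc
  obtain ⟨h1, h2⟩ := hK c hc
  refine ⟨fun g hg => ?_, fun g hg => ?_⟩
  · rw [show b (θ' g) = b (θ ⟨g, h1 g hg⟩) by rw [← hθ' ⟨g, h1 g hg⟩], ← hab]
  · rw [show b (θ' g) = b (θ ⟨g, h2 g hg⟩) by rw [← hθ' ⟨g, h2 g hg⟩], ← hab]

/-- the (unrestricted) wreath product group, as a structure -/
@[ext] structure Wr (Q : Type*) (A : Type*) where
  fn : Q → A
  sh : Q

namespace Wr
variable {Q : Type*} {A : Type*} [Group Q] [Group A]

instance : Mul (Wr Q A) := ⟨fun a b => ⟨fun q => a.fn q * b.fn (q * a.sh), a.sh * b.sh⟩⟩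
instance : One (Wr Q A) := ⟨⟨fun _ => 1, 1⟩⟩
instance : Inv (Wr Q A) := ⟨fun a => ⟨fun q => (a.fn (q * a.sh⁻¹))⁻¹, a.sh⁻¹⟩⟩

@[simp] lemma mul_fn (a b : Wr Q A) (q : Q) : (a * b).fn q = a.fn q * b.fn (q * a.sh) := rfl
@[simp] lemma mul_sh (a b : Wr Q A) : (a * b).sh = a.sh * b.sh := rfl
@[simp] lemma one_fn (q : Q) : (1 : Wr Q A).fn q = 1 := rfl
@[simp] lemma one_sh : (1 : Wr Q A).sh = 1 := rfl
@[simp] lemma inv_fn (a : Wr Q A) (q : Q) : (a⁻¹).fn q = (a.fn (q * a.sh⁻¹))⁻¹ := rfl
@[simp] lemma inv_sh (a : Wr Q A) : (a⁻¹).sh = a.sh⁻¹ := rfl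

instance : Group (Wr Q A) where
  mul_assoc a b c := by
    ext q
    · simp [mul_assoc]
    · simp [mul_assoc]
  one_mul a := by ext q <;> simp
  mul_one a := by ext q <;> simp
  inv_mul_cancel a := by
    ext q
    · simp
    · simp

end Wr

section lift
variable {G : Type*} {J : Type*} {Q : Type*} [Group Q] [Group G]
variable (τ : Q → G) (φ : G → Q) (ρ : J → Q)

/-- the lift of a word starting at position `s` -/
def liftWord : Q → List (G ⊕ (J × Bool)) → List (G ⊕ ((J × Q) × Bool))
  | _, [] => []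
  | s, .inl g :: l => .inl (τ s * g * (τ (s * φ g))⁻¹) :: liftWord (s * φ g) l
  | s, .inr (j, true) :: l => .inr ((j, s), true) :: liftWord (s * ρ j) l
  | s, .inr (j, false) :: l => .inr ((j, s * (ρ j)⁻¹), false) :: liftWord (s * (ρ j)⁻¹) l

@[simp] lemma liftWord_nil (s : Q) : liftWord τ φ ρ s [] = [] := rfl

lemma liftWord_append (s : Q) (l l' : List (G ⊕ (J × Bool))) :
    liftWord τ φ ρ s (l ++ l') = liftWord τ φ ρ s l ++ liftWord τ φ ρ (s * ev φ ρ l) l' := by
  induction l generalizing s with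
  | nil => simp
  | cons a l ih =>
    rcases a with g | ⟨j, b⟩
    · simp [liftWord, ih, evL, mul_assoc]
    · cases b <;> simp [liftWord, ih, evL, mul_assoc]

/-- the image of a coefficient in the wreath product -/
def thetaG (g : G) : Wr Q (UG G (J × Q)) :=
  ⟨fun q => Monoid.Coprod.inl (τ q * g * (τ (q * φ g))⁻¹), φ g⟩

/-- the image of an unknown in the wreath product -/
def thetaX (j : J) : Wr Q (UG G (J × Q)) :=
  ⟨fun q => Monoid.Coprod.inr (FreeGroup.of (j, q)), ρ j⟩

lemma ev_theta_sh (l : List (G ⊕ (J × Bool))) :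
    (ev (thetaG (J := J) τ φ) (thetaX ρ) l).sh = ev φ ρ l := by
  induction l with
  | nil => simp
  | cons a l ih =>
    rw [ev_cons, ev_cons, Wr.mul_sh, ih]
    rcases a with g | ⟨j, b⟩
    · rfl
    · cases b <;> simp [evL, thetaX]

lemma ev_theta_fn (l : List (G ⊕ (J × Bool))) (s : Q) :
    (ev (thetaG (J := J) τ φ) (thetaX ρ) l).fn s = evU (liftWord τ φ ρ s l) := by
  induction l generalizing s with
  | nil => simp
  | cons a l ih =>
    rcases a with g | ⟨j, b⟩
    · simp [liftWord, ih, evL, thetaG]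
    · cases b <;> simp [liftWord, ih, evL, thetaX]

/-- `thetaG` is a homomorphism on a subgroup on which `φ` is -/
def thetaK (K : Subgroup G) (hφ : ∀ a b : K, φ (a * b) = φ a * φ b) :
    K →* Wr Q (UG G (J × Q)) :=
  MonoidHom.mk' (fun k => thetaG τ φ (k : G)) (by
    intro a b
    ext q
    · simp [thetaG, hφ a b, mul_assoc, ← map_mul]
    · simp [thetaG, hφ a b])

lemma thetaK_injective (K : Subgroup G) (hφ : ∀ a b : K, φ (a * b) = φ a * φ b) :
    Function.Injective (thetaK (J := J) τ φ K hφ) := by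
  rw [injective_iff_map_eq_one]
  intro a ha
  have h1 : φ (a : G) = 1 := congrArg Wr.sh ha
  have h2 := congrFun (congrArg Wr.fn ha) 1
  have h3 : (Monoid.Coprod.inl (τ 1 * a * (τ (1 * φ (a : G)))⁻¹) : UG G (J × Q)) = 1 := h2
  rw [h1, ← map_one (Monoid.Coprod.inl : G →* UG G (J × Q))] at h3
  have h4 := Monoid.Coprod.inl_injective h3
  rw [mul_one, mul_inv_eq_one] at h4
  ext
  simpa using h4

/-- the lift of the entries of a certificate -/
def liftCert {I : Type*} (E : List (List (G ⊕ (J × Bool)) × I × Bool)) :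
    List (List (G ⊕ ((J × Q) × Bool)) × (I × Q) × Bool) :=
  E.map fun c => (liftWord τ φ ρ 1 c.1, (c.2.1, ev φ ρ c.1), c.2.2)

lemma evC_theta_sh {I : Type*} (w : I → List (G ⊕ (J × Bool)))
    (E : List (List (G ⊕ (J × Bool)) × I × Bool)) (hw : ∀ c ∈ E, ev φ ρ (w c.2.1) = 1) :
    (evC (thetaG (J := J) τ φ) (thetaX ρ) w E).sh = 1 := by
  induction E with
  | nil => simp
  | cons c E ih =>
    have h0 := hw c List.mem_cons_self
    rw [evC_cons, Wr.mul_sh, ih (fun c hc => hw c (List.mem_cons_of_mem _ hc))]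
    simp only [Wr.mul_sh, ev_theta_sh, Wr.inv_sh, mul_one]
    split_ifs <;> simp [ev_theta_sh, h0]

lemma evC_theta_fn {I : Type*} (w : I → List (G ⊕ (J × Bool)))
    (E : List (List (G ⊕ (J × Bool)) × I × Bool)) (hw : ∀ c ∈ E, ev φ ρ (w c.2.1) = 1) :
    (evC (thetaG (J := J) τ φ) (thetaX ρ) w E).fn 1 =
      evC (fun g => (Monoid.Coprod.inl g : UG G (J × Q)))
        (fun j => Monoid.Coprod.inr (FreeGroup.of j))
        (fun p : I × Q => liftWord τ φ ρ p.2 (w p.1)) (liftCert τ φ ρ E) := by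
  induction E with
  | nil => simp [liftCert]
  | cons c E ih =>
    have h0 := hw c List.mem_cons_self
    have ih := ih (fun c hc => hw c (List.mem_cons_of_mem _ hc))
    have hE : liftCert τ φ ρ (c :: E) =
      (liftWord τ φ ρ 1 c.1, (c.2.1, ev φ ρ c.1), c.2.2) :: liftCert τ φ ρ E := rfl
    rw [evC_cons, hE, evC_cons, Wr.mul_fn, ← ih]
    congr 1
    · simp only [Wr.mul_fn, ev_theta_sh, Wr.inv_fn, Wr.mul_sh, ev_theta_fn]
      split_ifs with hb
      · simp [ev_theta_fn, ev_theta_sh, h0]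
      · simp [ev_theta_fn, ev_theta_sh, h0]
    · simp only [Wr.mul_sh, ev_theta_sh, Wr.inv_sh]
      split_ifs with hb
      · simp [ev_theta_sh, h0]
      · simp [ev_theta_sh, h0]

end lift

/-- **Lifting a certificate.** -/
lemma lift_certificate {G : Type*} {J Q : Type*} [Group Q] [Group G]
    (τ : Q → G) (φ : G → Q) (ρ : J → Q) {I : Type*} (w : I → List (G ⊕ (J × Bool)))
    (E : List (List (G ⊕ (J × Bool)) × I × Bool)) (g : G)
    (hg : evC (fun g => (Monoid.Coprod.inl g : UG G J))
      (fun j => Monoid.Coprod.inr (FreeGroup.of j)) w E = Monoid.Coprod.inl g)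
    (K : Subgroup G) (hK : WordsOf w E (fun l => ∀ g, Sum.inl g ∈ l → g ∈ K))
    (hφ : ∀ a b : K, φ (a * b) = φ a * φ b) (hw : ∀ c ∈ E, ev φ ρ (w c.2.1) = 1) :
    evC (fun g => (Monoid.Coprod.inl g : UG G (J × Q)))
        (fun j => Monoid.Coprod.inr (FreeGroup.of j))
        (fun p : I × Q => liftWord τ φ ρ p.2 (w p.1)) (liftCert τ φ ρ E) =
      Monoid.Coprod.inl (τ 1 * g * (τ 1)⁻¹) := by
  obtain ⟨hgK, h1⟩ := transfer w E g hg K hK (thetaK (J := J) τ φ K hφ)
    (thetaK_injective τ φ K hφ) (thetaG τ φ) (fun k => rfl) (thetaX ρ)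
  have h2 := congrArg (fun a : Wr Q (UG G (J × Q)) => a.fn 1) h1
  have h3 := congrArg (fun a : Wr Q (UG G (J × Q)) => a.sh) h1
  simp only [evC_theta_sh τ φ ρ w E hw] at h3
  simp only [evC_theta_fn τ φ ρ w E hw] at h2
  rw [h2]
  have h4 : φ g = 1 := h3.symm
  show (Monoid.Coprod.inl (τ 1 * g * (τ (1 * φ g))⁻¹) : UG G (J × Q)) = _
  rw [h4, mul_one]

end Vale.Agent.P174
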