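import Vale.Agent.Lib.P174.Fox
import Vale.Agent.Lib.P174.Defs

/-!
# The descent argument (helper file for P174)
-/

namespace Vale.Agent.P174

universe u v

open MonoidAlgebra (single)

/-- the exponent matrix computed from words -/
lemma cast_exponentSum (F : Type*) [Field F] {G K : Type*} [Group K] {J : Type*} {n : ℕ}
    (φ : G → K) (T : J → Option (Fin n)) (l : List (G ⊕ (J × Bool))) (b : Fin n)
    (hT : ∀ j j', T j = some b → T j' = some b → j = j') (j₀ : J) (hj₀ : T j₀ = some b) :
    ((Multiplicative.toAdd (exponentSum K n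
      (ev (fun g => (Monoid.Coprod.inl (φ g) : Monoid.Coprod K (FreeGroup (Fin n))))
        (fun j => (T j).elim 1 (fun b => Monoid.Coprod.inr (FreeGroup.of b))) l)) b : ℤ) : F) =
      expVec F l j₀ := by
  classical
  have hx : ∀ j, exponentSum K n ((T j).elim 1 (fun b => Monoid.Coprod.inr (FreeGroup.of b))) =
      (T j).elim 1 (fun b => Multiplicative.ofAdd (Pi.single b 1)) := by
    intro j
    rcases T j with _ | c
    · simp
    · simp [exponentSum]
  have hx' : ∀ j, ((Multiplicative.toAdd ((T j).elim (1 : Multiplicative (Fin n → ℤ))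
      (fun b => Multiplicative.ofAdd (Pi.single b 1))) b : ℤ) : F) =
      (Finsupp.single j (1 : F)) j₀ := by
    intro j
    by_cases hj : j = j₀
    · subst hj
      rw [hj₀]
      simp
    · rw [Finsupp.single_eq_of_ne (Ne.symm hj)]
      rcases hc : T j with _ | c
      · simp
      · have hcb : b ≠ c := by
          rintro rfl
          exact hj (hT _ _ hc hj₀)
        simp [hcb]
  induction l with
  | nil => simp
  | cons a l ih =>
    rw [ev_cons, map_mul, toAdd_mul, Pi.add_apply, Int.cast_add, ih, expVec_cons,
      Finsupp.add_apply]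
    congr 1
    rcases a with g | ⟨j, c⟩
    · simp [evL, exponentSum, expL]
    · cases c
      · rw [evL, map_inv, toAdd_inv, Pi.neg_apply, Int.cast_neg, hx, hx' j]
        simp [expL]
      · rw [evL, hx, hx' j]
        simp [expL]

/-- **Base case.** If all the coefficients of a certificate lie in a subgroup over which all
systems are solvable then the certificate is trivial. -/
lemma base_case (F : Type) [Field F] {G : Type u} [Group G] {J I : Type*}
    (w : I → List (G ⊕ (J × Bool))) (hw : LinearIndependent F (fun i => expVec F (w i)))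
    (E : List (List (G ⊕ (J × Bool)) × I × Bool)) (g : G)
    (hg : evC (fun g => (Monoid.Coprod.inl g : UG G J))
      (fun j => Monoid.Coprod.inr (FreeGroup.of j)) w E = Monoid.Coprod.inl g)
    (K : Subgroup G) (hK : WordsOf w E (fun l => ∀ g, Sum.inl g ∈ l → g ∈ K))
    (hKS : SystemsSolvable F K) : g = 1 := by
  classical
  let IE : Finset I := (E.map (fun c => c.2.1)).toFinset
  let T : Finset J := IE.biUnion (fun i => (expVec F (w i)).support)
  let e := IE.equivFin
  let eT := T.equivFin
  let toK : G → K := fun g => if hg : g ∈ K then ⟨g, hg⟩ else 1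
  let toT : J → Option (Fin T.card) := fun j => if hj : j ∈ T then some (eT ⟨j, hj⟩) else none
  let W : Fin IE.card → Monoid.Coprod K (FreeGroup (Fin T.card)) := fun a =>
    ev (fun g => (Monoid.Coprod.inl (toK g) : Monoid.Coprod K (FreeGroup (Fin T.card))))
      (fun j => (toT j).elim 1 (fun b => Monoid.Coprod.inr (FreeGroup.of b))) (w (e.symm a))
  have htoT : ∀ j b, toT j = some b ↔ j = (eT.symm b : J) := by
    intro j b
    constructor
    · intro h
      by_cases hj : j ∈ T
      · simp only [toT, hj, dif_pos, Option.some.injEq] at h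
        rw [← h]
        simp
      · simp [toT, hj] at h
    · rintro rfl
      simp [toT]
  have hW : NonsingularOver F W := by
    have hrow : ∀ a b, ((exponentMatrix W).map (Int.cast : ℤ → F)) a b =
        expVec F (w (e.symm a)) (eT.symm b : J) := by
      intro a b
      exact cast_exponentSum F toK toT (w (e.symm a)) b
        (fun j j' h h' => ((htoT j b).1 h).trans ((htoT j' b).1 h').symm) (eT.symm b : J)
        ((htoT _ b).2 rfl)
    have hli : LinearIndependent F ((exponentMatrix W).map (Int.cast : ℤ → F)).row := by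
      rw [Fintype.linearIndependent_iff]
      intro c hc
      have hw' := hw.comp (fun a : Fin IE.card => (e.symm a : I))
        (Subtype.val_injective.comp e.symm.injective)
      rw [Fintype.linearIndependent_iff] at hw'
      apply hw' c
      ext j
      by_cases hj : j ∈ T
      · have := congrFun hc (eT ⟨j, hj⟩)
        simp only [Finset.sum_apply, Pi.smul_apply, Matrix.row, hrow, smul_eq_mul,
          Pi.zero_apply, Equiv.symm_apply_apply] at this
        simpa [Finsupp.finsetSum_apply] using this
      · have hz : ∀ a : Fin IE.card, expVec F (w (e.symm a)) j = 0 := by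
          intro a
          by_contra hne
          apply hj
          rw [Finset.mem_biUnion]
          exact ⟨_, (e.symm a).2, Finsupp.mem_support_iff.2 hne⟩
        simp [Finsupp.finsetSum_apply, hz]
    have := hli.rank_matrix
    rwa [Fintype.card_fin] at this
  obtain ⟨H, _, θ, h, hθ, hsol⟩ := hKS _ _ W hW
  let h' : J → H := fun j => (toT j).elim 1 h
  obtain ⟨hgK, h1⟩ := transfer w E g hg K hK θ hθ (fun g => θ (toK g))
    (fun k => by simp [toK]) h'
  have h2 : evC (fun g => θ (toK g)) h' w E = 1 := by
    apply evC_eq_one_of_relators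
    intro c hc
    have hcI : c.2.1 ∈ IE := by
      rw [List.mem_toFinset, List.mem_map]
      exact ⟨c, hc, rfl⟩
    have h3 := hsol (e ⟨c.2.1, hcI⟩)
    simp only [W, Equiv.symm_apply_apply] at h3
    rw [map_ev] at h3
    rw [← h3]
    congr 1
    funext j
    rcases hj : toT j with _ | b
    · simp [h', hj]
    · simp [h', hj]
  rw [h2] at h1
  have := hθ (h1.symm.trans (map_one θ).symm)
  simpa using congrArg Subtype.val this

lemma exists_potential (F : Type*) [Field F] {I J : Type*} (v : I → (J →₀ F))
    (hv : LinearIndependent F v) (b : I → F) :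
    ∃ ρ : J → F, ∀ i, Finsupp.linearCombination F ρ (v i) = b i := by
  obtain ⟨B, hB⟩ := LinearMap.exists_leftInverse_of_injective
    (Finsupp.linearCombination F v) (LinearMap.ker_eq_bot.mpr hv)
  let L : (J →₀ F) →ₗ[F] F := (Finsupp.linearCombination F b) ∘ₗ B
  refine ⟨fun j => L (Finsupp.single j 1), fun i => ?_⟩
  have h1 : Finsupp.linearCombination F (fun j => L (Finsupp.single j 1)) = L := by
    ext j
    simp
  rw [h1]
  have h2 := LinearMap.congr_fun hB (Finsupp.single i 1)
  simp only [LinearMap.comp_apply, Finsupp.linearCombination_single, one_smul,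
    LinearMap.id_apply] at h2
  simp [L, h2]

lemma toAdd_ev {F : Type*} [Field F] {G : Type*} {J : Type*} (φ : G → Multiplicative F)
    (ρ : J → F) (l : List (G ⊕ (J × Bool))) :
    Multiplicative.toAdd (ev φ (fun j => Multiplicative.ofAdd (ρ j)) l) =
      Multiplicative.toAdd (ev φ (fun _ => 1) l) +
        Finsupp.linearCombination F ρ (expVec F l) := by
  induction l with
  | nil => simp
  | cons a l ih =>
    rw [ev_cons, ev_cons, toAdd_mul, toAdd_mul, ih, expVec_cons, map_add]
    rcases a with g | ⟨j, b⟩
    · simp [evL, expL, add_assoc]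
    · cases b
      · simp [evL, expL]; ring
      · simp [evL, expL]; ring

open Classical in
/-- number of nontrivial coefficients of a letter -/
noncomputable def cntL {G J : Type*} [Group G] : G ⊕ (J × Bool) → ℕ
  | .inl g => if g = 1 then 0 else 1
  | .inr _ => 0

/-- number of nontrivial coefficients of a word -/
noncomputable def cnt {G J : Type*} [Group G] (l : List (G ⊕ (J × Bool))) : ℕ :=
  (l.map cntL).sum

/-- the complexity of a certificate -/
noncomputable def meas {G J I : Type*} [Group G] (w : I → List (G ⊕ (J × Bool)))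
    (E : List (List (G ⊕ (J × Bool)) × I × Bool)) : ℕ :=
  (E.map fun c => cnt c.1 + cnt (w c.2.1)).sum

section cnt
variable {G : Type u} {J : Type v} {Q : Type v} [Group Q] [Group G]
variable (τ : Q → G) (φ : G → Q) (ρ : J → Q)

lemma cnt_liftWord_le (hφ : φ 1 = 1) (s : Q) (l : List (G ⊕ (J × Bool))) :
    cnt (liftWord τ φ ρ s l) ≤ cnt l := by
  induction l generalizing s with
  | nil => exact le_rfl
  | cons a l ih =>
    rcases a with g | ⟨j, b⟩
    · simp only [liftWord, cnt, List.map_cons, List.sum_cons]
      refine Nat.add_le_add ?_ (ih _)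
      by_cases hg : g = 1
      · subst hg
        simp [cntL, hφ]
      · rw [cntL, cntL, if_neg hg]
        split_ifs <;> omega
    · cases b
      · simp only [liftWord, cnt, List.map_cons, List.sum_cons]
        exact Nat.add_le_add le_rfl (ih _)
      · simp only [liftWord, cnt, List.map_cons, List.sum_cons]
        exact Nat.add_le_add le_rfl (ih _)

lemma cnt_append (l l' : List (G ⊕ (J × Bool))) : cnt (l ++ l') = cnt l + cnt l' := by
  simp [cnt]

lemma cnt_liftWord_lt (hφ : φ 1 = 1) (s : Q) (l l' : List (G ⊕ (J × Bool))) (g : G) (hg : g ≠ 1)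
    (h1 : τ (s * ev φ ρ l) = 1) (h2 : τ (s * ev φ ρ l * φ g) = g) :
    cnt (liftWord τ φ ρ s (l ++ .inl g :: l')) < cnt (l ++ .inl g :: l') := by
  rw [liftWord_append, cnt_append, cnt_append]
  refine Nat.add_lt_add_of_le_of_lt (cnt_liftWord_le τ φ ρ hφ _ _) ?_
  simp only [liftWord, cnt, List.map_cons, List.sum_cons]
  refine Nat.add_lt_add_of_lt_of_le ?_ (cnt_liftWord_le τ φ ρ hφ _ _)
  rw [h1, h2]
  simp [cntL, hg]

end cnt

/-- **The descent.** -/
theorem descent (F : Type) [Field F] (G : Type u) [Group G]
    (hG : ∀ K : Subgroup G, K.FG → SystemsSolvable F K ∨ ∃ f : K →* Multiplicative F, f ≠ 1) :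
    ∀ (N : ℕ) (J I : Type) (w : I → List (G ⊕ (J × Bool)))
      (_ : LinearIndependent F (fun i => expVec F (w i)))
      (E : List (List (G ⊕ (J × Bool)) × I × Bool)) (_ : meas w E = N) (g : G)
      (_ : evC (fun g => (Monoid.Coprod.inl g : UG G J))
        (fun j => Monoid.Coprod.inr (FreeGroup.of j)) w E = Monoid.Coprod.inl g), g = 1 := by
  classical
  intro N
  induction N using Nat.strong_induction_on with
  | _ N IH =>
  intro J I w hw E hE g hg
  let S : Set G := {a | ∃ c ∈ E, Sum.inl a ∈ c.1 ∨ Sum.inl a ∈ w c.2.1}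
  have hS : S.Finite := by
    have : S ⊆ ⋃ c ∈ E.toFinset, ((fun a : G => (Sum.inl a : G ⊕ (J × Bool))) ⁻¹'
        {x | x ∈ c.1 ∨ x ∈ w c.2.1}) := by
      rintro a ⟨c, hc, ha⟩
      simp only [Set.mem_iUnion]
      exact ⟨c, List.mem_toFinset.2 hc, ha⟩
    refine Set.Finite.subset ?_ this
    refine Set.Finite.biUnion (Finset.finite_toSet _) ?_
    intro c _
    refine Set.Finite.preimage (Sum.inl_injective.injOn) ?_
    have h1 : {x : G ⊕ (J × Bool) | x ∈ c.1 ∨ x ∈ w c.2.1} ⊆
        ((c.1 ++ w c.2.1).toFinset : Set (G ⊕ (J × Bool))) := by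
      intro x hx
      simpa using hx
    exact (Finset.finite_toSet _).subset h1
  let K : Subgroup G := Subgroup.closure S
  have hKfg : K.FG := by
    rw [Subgroup.fg_iff]
    exact ⟨S, rfl, hS⟩
  have hK : WordsOf w E (fun l => ∀ g, Sum.inl g ∈ l → g ∈ K) := by
    intro c hc
    exact ⟨fun a ha => Subgroup.subset_closure ⟨c, hc, Or.inl ha⟩,
      fun a ha => Subgroup.subset_closure ⟨c, hc, Or.inr ha⟩⟩
  rcases hG K hKfg with hsol | ⟨f, hf⟩
  · exact base_case F w hw E g hg K hK hsol
  · -- the function `φ`
    let φ : G → Multiplicative F := fun g => if hg : g ∈ K then f ⟨g, hg⟩ else 1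
    have hφK : ∀ k : K, φ k = f k := fun k => by simp [φ]
    have hφ1 : φ 1 = 1 := by
      have := hφK 1
      simpa using this
    have hφmul : ∀ a b : K, φ (a * b) = φ a * φ b := by
      intro a b
      have := hφK (a * b)
      rw [Subgroup.coe_mul] at this
      rw [this, hφK, hφK, map_mul]
    -- potentials
    obtain ⟨ρ₀, hρ₀⟩ := exists_potential F (fun i => expVec F (w i)) hw
      (fun i => - Multiplicative.toAdd (ev φ (fun _ => 1) (w i)))
    let ρ : J → Multiplicative F := fun j => Multiplicative.ofAdd (ρ₀ j)
    have hpot : ∀ i, ev φ ρ (w i) = 1 := by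
      intro i
      apply Multiplicative.toAdd.injective
      rw [toAdd_ev, hρ₀]
      simp
    -- a coefficient with nontrivial image
    obtain ⟨a, ⟨c, hc, ha⟩, hfa⟩ : ∃ a ∈ S, φ a ≠ 1 := by
      by_contra hcon
      push Not at hcon
      apply hf
      have h1 : ∀ x (hx : x ∈ Subgroup.closure S), f ⟨x, hx⟩ = 1 := by
        intro x hx
        induction hx using Subgroup.closure_induction with
        | mem y hy =>
          have := hcon y hy
          rwa [← hφK ⟨y, Subgroup.subset_closure hy⟩]
        | one => exact map_one f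
        | mul y z hy hz h1 h2 =>
          have : (⟨y * z, K.mul_mem hy hz⟩ : K) = ⟨y, hy⟩ * ⟨z, hz⟩ := rfl
          rw [this, map_mul, h1, h2, one_mul]
        | inv y hy h1 =>
          have : (⟨y⁻¹, K.inv_mem hy⟩ : K) = (⟨y, hy⟩ : K)⁻¹ := rfl
          rw [this, map_inv, h1, inv_one]
      ext x
      exact congrArg _ (h1 x.1 x.2)
    have ha1 : a ≠ 1 := by
      rintro rfl
      exact hfa hφ1
    -- the position of this coefficient in the lift
    obtain ⟨s, l, l', hl⟩ : ∃ (s : Multiplicative F) (l l' : List (G ⊕ (J × Bool))),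
        (s = 1 ∧ c.1 = l ++ .inl a :: l') ∨
        (s = ev φ ρ c.1 ∧ w c.2.1 = l ++ .inl a :: l') := by
      rcases ha with ha | ha
      · obtain ⟨l, l', h⟩ := List.append_of_mem ha
        exact ⟨1, l, l', Or.inl ⟨rfl, h⟩⟩
      · obtain ⟨l, l', h⟩ := List.append_of_mem ha
        exact ⟨ev φ ρ c.1, l, l', Or.inr ⟨rfl, h⟩⟩
    let τ : Multiplicative F → G := fun q => if q = s * ev φ ρ l * φ a then a else 1
    have hτ1 : τ (s * ev φ ρ l) = 1 := by
      have : s * ev φ ρ l ≠ s * ev φ ρ l * φ a := by
        intro h
        exact hfa (mul_eq_left.mp h.symm)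
      simp [τ, this]
    have hτ2 : τ (s * ev φ ρ l * φ a) = a := by simp [τ]
    -- the lifted certificate
    have hlift := lift_certificate τ φ ρ w E g hg K hK hφmul (fun c _ => hpot _)
    have hind : LinearIndependent F
        (fun p : I × Multiplicative F => expVec F (liftWord τ φ ρ p.2 (w p.1))) := by
      apply linearIndependent_lift
      apply linearIndependent_of_aug (aug F (Multiplicative F)) (aug_nonZeroDivisors F)
      convert hw using 2 with i
      ext j
      rw [Finsupp.mapRange_apply]
      exact aug_fox F φ ρ (w i) j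
    have hmeas : meas (fun p : I × Multiplicative F => liftWord τ φ ρ p.2 (w p.1))
        (liftCert τ φ ρ E) < N := by
      rw [← hE]
      unfold meas liftCert
      rw [List.map_map]
      refine List.sum_lt_sum (M := ℕ) _ _ ?_ ?_
      · intro d _
        exact Nat.add_le_add (cnt_liftWord_le τ φ ρ hφ1 _ _) (cnt_liftWord_le τ φ ρ hφ1 _ _)
      · refine ⟨c, hc, ?_⟩
        rcases hl with ⟨rfl, hl⟩ | ⟨rfl, hl⟩
        · refine Nat.add_lt_add_of_lt_of_le ?_ (cnt_liftWord_le τ φ ρ hφ1 _ _)
          simp only
          rw [hl]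
          exact cnt_liftWord_lt τ φ ρ hφ1 1 l l' a ha1 hτ1 hτ2
        · refine Nat.add_lt_add_of_le_of_lt (cnt_liftWord_le τ φ ρ hφ1 _ _) ?_
          simp only
          rw [hl]
          exact cnt_liftWord_lt τ φ ρ hφ1 _ l l' a ha1 hτ1 hτ2
    have hfin := IH _ hmeas (J × Multiplicative F) (I × Multiplicative F) _ hind
      (liftCert τ φ ρ E) rfl _ hlift
    have h5 : τ 1 * g = τ 1 := mul_inv_eq_one.mp hfin
    exact mul_eq_left.mp h5

/-- if every consequence of the system lying in `G` is trivial then the system is solvable -/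
lemma solvableOver_of_forall {G : Type u} [Group G] {m n : ℕ}
    (w : Fin m → Monoid.Coprod G (FreeGroup (Fin n)))
    (h : ∀ g : G, Monoid.Coprod.inl g ∈ Subgroup.normalClosure (Set.range w) → g = 1) :
    SolvableOver w := by
  let P := Monoid.Coprod G (FreeGroup (Fin n)) ⧸ Subgroup.normalClosure (Set.range w)
  let π : Monoid.Coprod G (FreeGroup (Fin n)) →* P := QuotientGroup.mk' _
  refine ⟨P, inferInstance, π.comp Monoid.Coprod.inl,
    fun j => π (Monoid.Coprod.inr (FreeGroup.of j)), ?_, ?_⟩
  · rw [injective_iff_map_eq_one]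
    intro g hg
    exact h g ((QuotientGroup.eq_one_iff _).1 hg)
  · intro i
    have h1 : Monoid.Coprod.lift (π.comp Monoid.Coprod.inl)
        (FreeGroup.lift fun j => π (Monoid.Coprod.inr (FreeGroup.of j))) = π := by
      apply Monoid.Coprod.hom_ext
      · rfl
      · ext j
        simp
    rw [h1]
    exact (QuotientGroup.eq_one_iff _).2 (Subgroup.subset_normalClosure ⟨i, rfl⟩)

/-- nonsingularity as linear independence of the exponent vectors of words -/
lemma linearIndependent_of_nonsingular (F : Type) [Field F] {G : Type u} [Group G] {m n : ℕ}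
    (w : Fin m → Monoid.Coprod G (FreeGroup (Fin n))) (hw : NonsingularOver F w)
    (l : Fin m → List (G ⊕ (Fin n × Bool))) (hl : ∀ i, evU (l i) = w i) :
    LinearIndependent F (fun i => expVec F (l i)) := by
  classical
  have h0 : ∀ i j, ((exponentMatrix w).map (Int.cast : ℤ → F)) i j = expVec F (l i) j := by
    intro i j
    have h := cast_exponentSum F (G := G) (K := G) (fun g => g) (fun j : Fin n => some j) (l i) j
      (fun a b ha hb => (Option.some.inj ha).trans (Option.some.inj hb).symm) j rfl
    rw [← h]
    show ((Multiplicative.toAdd (exponentSum G n (w i)) j : ℤ) : F) = _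
    rw [← hl i]
    rfl
  have h1 : LinearIndependent F ((exponentMatrix w).map (Int.cast : ℤ → F)).row := by
    rw [linearIndependent_iff_card_eq_finrank_span, Set.finrank]
    have h2 : ((exponentMatrix w).map (Int.cast : ℤ → F)).rank = m := hw
    rw [Matrix.rank_eq_finrank_span_row] at h2
    rw [h2, Fintype.card_fin]
  rw [Fintype.linearIndependent_iff] at h1 ⊢
  intro c hc
  apply h1 c
  funext j
  have h2 := DFunLike.congr_fun hc j
  simp only [Finsupp.finsetSum_apply, Finsupp.smul_apply, smul_eq_mul,
    Finsupp.coe_zero, Pi.zero_apply] at h2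
  simp only [Finset.sum_apply, Pi.smul_apply, Matrix.row, h0, smul_eq_mul, Pi.zero_apply]
  exact h2

/-- **Main theorem.** -/
theorem systemsSolvable_of_local (F : Type) [Field F] (G : Type u) [Group G]
    (hG : ∀ K : Subgroup G, K.FG → SystemsSolvable F K ∨ ∃ f : K →* Multiplicative F, f ≠ 1) :
    SystemsSolvable F G := by
  intro m n w hw
  choose l hl using fun i => exists_word (w i)
  apply solvableOver_of_forall
  intro g hg
  have hr : Set.range w = Set.range fun i => (evU (l i) : UG G (Fin n)) := by
    congr 1
    funext i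
    exact (hl i).symm
  rw [hr] at hg
  obtain ⟨E, hE⟩ := exists_certificate l _ hg
  exact descent F G hG _ (Fin n) (Fin m) l (linearIndependent_of_nonsingular F w hw l hl) E rfl g hE

end Vale.Agent.P174
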